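import Vale.Agent.P022.H346.FAlg

/-!
P022D: from a two-dimensional trace function to a representation. An element `g₀` with roots
`α`, `β` of its characteristic polynomial, `α - β` a unit, and an element `s₀` with unit
off-diagonal product give a representation with this trace, unique after a normalisation.
-/

set_option autoImplicit false

noncomputable section

namespace Vale.Agent.P022D.Gma

open Vale.Agent.P022.H346 Matrix

/-- two by two matrices -/
abbrev M2 (R : Type) : Type := Matrix (Fin 2) (Fin 2) R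

section alg

variable {B A : Type} [CommRing B] [Ring A] [Algebra B A]

/-- a Cayley-Hamilton algebra of degree two -/
structure CH (T : A →ₗ[B] B) : Prop where
  one : T 1 = 2
  comm : ∀ x y, T (x * y) = T (y * x)
  pol : ∀ x y : A, x * y + y * x = T x • y + T y • x + (T (x * y) - T x * T y) • (1 : A)

theorem CH.sand {T : A →ₗ[B] B} (h : CH T) {e : A} (he : e * e = e) (h1 : T e = 1) (x : A) :
    e * x * e = T (x * e) • e := by
  have := h.pol (x * e) e
  rw [mul_assoc x e e, he, h1, one_smul, mul_one, sub_self, zero_smul, add_zero, ← mul_assoc,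
    add_comm] at this
  exact add_right_cancel this

/-- matrix units -/
theorem CH.units {T : A →ₗ[B] B} (h : CH T) {e p q : A} (he : e * e = e) (h1 : T e = 1)
    (hp : e * p = p) (hp' : p * e = 0) (hq : q * e = q) (hq' : e * q = 0) (hpq : p * q = e)
    (hqp : q * p = 1 - e) :
    ∃ Φ : A →* M2 B, ∀ x, Φ x = !![T (x * e), T (x * q); T (x * p), T (x * (1 - e))] := by
  have hf : (1 - e) * (1 - e) = 1 - e := by
    rw [sub_mul, one_mul, mul_sub, mul_one, he, sub_self, sub_zero]
  have h2 : T (1 - e) = 1 := by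
    rw [map_sub, h.one, h1]; ring
  have pf : p * (1 - e) = p := by rw [mul_sub, mul_one, hp', sub_zero]
  have fq : (1 - e) * q = q := by rw [sub_mul, one_mul, hq', sub_zero]
  have s11 : ∀ y, e * y * e = T (y * e) • e := h.sand he h1
  have s22 : ∀ y, (1 - e) * y * (1 - e) = T (y * (1 - e)) • (1 - e) := h.sand hf h2
  have s12 : ∀ y, e * y * (1 - e) = T (y * q) • p := by
    intro y
    have := s11 (y * q)
    rw [mul_assoc y q e, hq] at this
    calc e * y * (1 - e) = e * (y * q) * e * p := by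
          rw [← hqp, mul_assoc (e * (y * q)) e p, hp]; simp only [mul_assoc]
      _ = _ := by rw [this, smul_mul_assoc, hp]
  have s21 : ∀ y, (1 - e) * y * e = T (y * p) • q := by
    intro y
    have := s22 (y * p)
    rw [mul_assoc y p (1 - e), pf] at this
    calc (1 - e) * y * e = (1 - e) * (y * p) * (1 - e) * q := by
          rw [mul_assoc ((1 - e) * (y * p)) (1 - e) q, fq]
          simp only [mul_assoc]
          rw [hpq]
      _ = _ := by rw [this, smul_mul_assoc, fq]
  have d1 : ∀ y, y * e = T (y * e) • e + T (y * p) • q := by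
    intro y
    rw [← s11, ← s21, ← add_mul, ← add_mul, add_sub_cancel, one_mul]
  have d2 : ∀ y, y * (1 - e) = T (y * q) • p + T (y * (1 - e)) • (1 - e) := by
    intro y
    rw [← s12, ← s22, ← add_mul, ← add_mul, add_sub_cancel, one_mul]
  have d3 : ∀ y, y * q = T (y * q) • e + T (y * (1 - e)) • q := by
    intro y
    calc y * q = y * (1 - e) * q := by rw [mul_assoc, fq]
      _ = _ := by
        conv_lhs => rw [d2 y]
        rw [add_mul, smul_mul_assoc, smul_mul_assoc, hpq, fq]
  have d4 : ∀ y, y * p = T (y * e) • p + T (y * p) • (1 - e) := by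
    intro y
    calc y * p = y * e * p := by rw [mul_assoc, hp]
      _ = _ := by
        conv_lhs => rw [d1 y]
        rw [add_mul, smul_mul_assoc, smul_mul_assoc, hp, hqp]
  have tq : T q = 0 := by
    rw [← hq, h.comm, hq', map_zero]
  have tp : T p = 0 := by
    rw [← hp, h.comm, hp', map_zero]
  refine ⟨⟨⟨fun x => !![T (x * e), T (x * q); T (x * p), T (x * (1 - e))], ?_⟩, ?_⟩,
    fun _ => rfl⟩
  · simp only [one_mul, h1, h2, tq, tp]
    exact Matrix.one_fin_two.symm
  · intro x y
    have k : ∀ (z u v : A) (a b : B), y * z = a • u + b • v →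
        T (x * y * z) = T (x * u) * a + T (x * v) * b := by
      intro z u v a b hz
      rw [mul_assoc, hz, mul_add, mul_smul_comm, mul_smul_comm, map_add, map_smul, map_smul,
        smul_eq_mul, smul_eq_mul, mul_comm a, mul_comm b]
    simp only [Matrix.mul_fin_two]
    rw [k _ _ _ _ _ (d1 y), k _ _ _ _ _ (d3 y), k _ _ _ _ _ (d4 y), k _ _ _ _ _ (d2 y)]

end alg

section grp

variable {G B : Type} [Group G] [CommRing B]

/-- the linear extension of `t` -/
def lin (t : G → B) : MonoidAlgebra B G →ₗ[B] B :=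
  (Finsupp.linearCombination B t).comp (MonoidAlgebra.coeffLinearEquiv B).toLinearMap

theorem lin_of (t : G → B) (g : G) : lin t (MonoidAlgebra.of B G g) = t g := by
  simp [lin]

theorem ind {P : MonoidAlgebra B G → Prop} (x : MonoidAlgebra B G)
    (h1 : ∀ g, P (MonoidAlgebra.of B G g)) (h2 : ∀ x y, P x → P y → P (x + y))
    (h3 : ∀ (b : B) x, P x → P (b • x)) : P x :=
  MonoidAlgebra.induction_on x h1 h2 h3

theorem lin_comm {t : G → B} {d : G →* Bˣ} (T : TF t d) (x y : MonoidAlgebra B G) :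
    lin t (x * y) = lin t (y * x) := by
  refine ind (P := fun x => lin t (x * y) = lin t (y * x)) x (fun g => ?_) (fun x x' h h' => ?_)
    fun b x h => ?_
  · refine ind (P := fun y => lin t (MonoidAlgebra.of B G g * y) =
      lin t (y * MonoidAlgebra.of B G g)) y (fun k => ?_) (fun y y' h h' => ?_) fun b y h => ?_
    · rw [← map_mul, ← map_mul, lin_of, lin_of, T.comm]
    · rw [mul_add, add_mul, map_add, map_add, h, h']
    · rw [mul_smul_comm, smul_mul_assoc, map_smul, map_smul, h]
  · rw [mul_add, add_mul, map_add, map_add, h, h']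
  · rw [mul_smul_comm, smul_mul_assoc, map_smul, map_smul, h]

theorem lin_pol {t : G → B} {d : G →* Bˣ} (T : TF t d) (z x y : MonoidAlgebra B G) :
    lin t (z * (x * y)) + lin t (z * (y * x)) = lin t x * lin t (z * y) + lin t y * lin t (z * x) +
      (lin t (x * y) - lin t x * lin t y) * lin t z := by
  refine ind (P := fun x => lin t (z * (x * y)) + lin t (z * (y * x)) = lin t x * lin t (z * y) +
    lin t y * lin t (z * x) + (lin t (x * y) - lin t x * lin t y) * lin t z) x (fun g => ?_)
    (fun x x' h h' => ?_) fun b x h => ?_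
  · set X := MonoidAlgebra.of B G g with hX
    refine ind (P := fun y => lin t (z * (X * y)) + lin t (z * (y * X)) = lin t X * lin t (z * y) +
      lin t y * lin t (z * X) + (lin t (X * y) - lin t X * lin t y) * lin t z) y (fun k => ?_)
      (fun y y' h h' => ?_) fun b y h => ?_
    · set Y := MonoidAlgebra.of B G k with hY
      refine ind (P := fun z => lin t (z * (X * Y)) + lin t (z * (Y * X)) =
        lin t X * lin t (z * Y) + lin t Y * lin t (z * X) +
          (lin t (X * Y) - lin t X * lin t Y) * lin t z) z (fun u => ?_)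
        (fun z z' h h' => ?_) fun b z h => ?_
      · simp only [hX, hY, ← map_mul, lin_of]
        have := T.swap u g k 1
        simp only [mul_one, mul_assoc] at this
        linear_combination this
      · simp only [add_mul, map_add] at h h' ⊢
        linear_combination h + h'
      · simp only [smul_mul_assoc, map_smul, smul_eq_mul] at h ⊢
        linear_combination b * h
    · simp only [add_mul, mul_add, map_add] at h h' ⊢
      linear_combination h + h'
    · simp only [smul_mul_assoc, mul_smul_comm, map_smul, smul_eq_mul] at h ⊢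
      linear_combination b * h
  · simp only [add_mul, mul_add, map_add] at h h' ⊢
    linear_combination h + h'
  · simp only [smul_mul_assoc, mul_smul_comm, map_smul, smul_eq_mul] at h ⊢
    linear_combination b * h

/-- the kernel of the trace form -/
def con {t : G → B} {d : G →* Bˣ} (T : TF t d) : RingCon (MonoidAlgebra B G) where
  r x y := ∀ z, lin t (z * x) = lin t (z * y)
  iseqv := ⟨fun _ _ => rfl, fun h z => (h z).symm, fun h h' z => (h z).trans (h' z)⟩
  mul' {x y x' y'} h h' z := by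
    rw [← mul_assoc, h' (z * x), lin_comm T, ← mul_assoc, h (y' * z), mul_assoc, lin_comm T,
      mul_assoc]
  add' {x y x' y'} h h' z := by
    rw [mul_add, mul_add, map_add, map_add, h z, h' z]

/-- the Cayley-Hamilton algebra of a trace function -/
theorem exists_ch {t : G → B} {d : G →* Bˣ} (T : TF t d) :
    ∃ (A : Type) (_ : Ring A) (_ : Algebra B A) (L : A →ₗ[B] B) (π : G →* A), CH L ∧
      (∀ g, L (π g) = t g) ∧ ∀ g, π g + (d g : B) • π g⁻¹ = t g • (1 : A) := by
  let c := con T
  have hs : ∀ y : c.Quotient, ∃ x, c.mk' x = y := c.mk'_surjective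
  let L0 : c.Quotient → B := Quotient.lift (fun x => lin t x) fun x y h => by
    have := h 1
    rwa [one_mul, one_mul] at this
  have hL0 : ∀ x, L0 (c.mk' x) = lin t x := fun _ => rfl
  have hsm : ∀ (b : B) x, b • c.mk' x = c.mk' (b • x) := fun _ _ => rfl
  let L : c.Quotient →ₗ[B] B :=
    { toFun := L0
      map_add' := fun x y => by
        obtain ⟨x, rfl⟩ := hs x
        obtain ⟨y, rfl⟩ := hs y
        rw [← map_add, hL0, hL0, hL0, map_add]
      map_smul' := fun b x => by
        obtain ⟨x, rfl⟩ := hs x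
        rw [hsm, hL0, hL0, map_smul]
        rfl }
  have hL : ∀ x, L (c.mk' x) = lin t x := fun _ => rfl
  have hq : ∀ x y, (∀ z, lin t (z * x) = lin t (z * y)) → c.mk' x = c.mk' y := fun x y h =>
    c.eq.2 h
  refine ⟨c.Quotient, inferInstance, inferInstance, L,
    (c.mk' : MonoidAlgebra B G →* c.Quotient).comp (MonoidAlgebra.of B G), ⟨?_, ?_, ?_⟩, ?_, ?_⟩
  · rw [← map_one c.mk', hL, ← map_one (MonoidAlgebra.of B G), lin_of, T.one]
  · intro x y
    obtain ⟨x, rfl⟩ := hs x
    obtain ⟨y, rfl⟩ := hs y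
    rw [← map_mul, ← map_mul, hL, hL, lin_comm T]
  · intro x y
    obtain ⟨x, rfl⟩ := hs x
    obtain ⟨y, rfl⟩ := hs y
    rw [← map_mul, ← map_mul, ← map_add, hL, hL, hL, ← map_one c.mk', hsm, hsm, hsm, ← map_add,
      ← map_add]
    refine hq _ _ fun z => ?_
    simp only [mul_add, mul_smul_comm, map_add, map_smul, smul_eq_mul, mul_one]
    exact lin_pol T z x y
  · intro g
    exact (hL _).trans (lin_of t g)
  · intro g
    change c.mk' (MonoidAlgebra.of B G g) + (d g : B) • c.mk' (MonoidAlgebra.of B G g⁻¹) = _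
    rw [← map_one c.mk', hsm, hsm, ← map_add]
    refine hq _ _ fun z => ?_
    simp only [mul_add, mul_smul_comm, map_add, map_smul, smul_eq_mul, mul_one]
    refine ind (P := fun z => lin t (z * MonoidAlgebra.of B G g) +
      (d g : B) * lin t (z * MonoidAlgebra.of B G g⁻¹) = t g * lin t z) z (fun u => ?_)
      (fun z z' h h' => ?_) fun b z h => ?_
    · simp only [← map_mul, lin_of]
      linear_combination -T.mul u g
    · simp only [add_mul, map_add] at h h' ⊢
      linear_combination h + h'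
    · simp only [smul_mul_assoc, map_smul, smul_eq_mul] at h ⊢
      linear_combination b * h

/-- the upper left entry in terms of traces; `u` is the inverse of `α - β` -/
def ent (t : G → B) (g₀ : G) (β u : B) (g : G) : B := (t (g * g₀) - β * t g) * u

/-- the product of the off-diagonal entries of `s₀` -/
def mu (t : G → B) (g₀ s₀ : G) (β u : B) : B :=
  ent t g₀ β u (s₀ * s₀) - ent t g₀ β u s₀ ^ 2

/-- the matrix in terms of traces; `b' `, `v` are the inverses of `b` and of `mu` -/
def mat (t : G → B) (g₀ s₀ : G) (β u b b' v : B) (g : G) : M2 B :=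
  !![ent t g₀ β u g, b * v * (ent t g₀ β u (g * s₀) - ent t g₀ β u g * ent t g₀ β u s₀);
    b' * (ent t g₀ β u (s₀ * g) - ent t g₀ β u s₀ * ent t g₀ β u g), t g - ent t g₀ β u g]

theorem ent_eq {ρ : G →* M2 B} {g₀ : G} {α β u : B} (h0 : ρ g₀ = !![α, 0; 0, β])
    (hu : (α - β) * u = 1) (g : G) : ent (fun g => (ρ g).trace) g₀ β u g = ρ g 0 0 := by
  simp only [ent, map_mul, h0, Matrix.trace_fin_two, Matrix.mul_apply, Fin.sum_univ_two]
  simp
  linear_combination (ρ g 0 0) * hu

theorem mu_eq {ρ : G →* M2 B} {g₀ : G} (s₀ : G) {α β u : B} (h0 : ρ g₀ = !![α, 0; 0, β])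
    (hu : (α - β) * u = 1) : mu (fun g => (ρ g).trace) g₀ s₀ β u = ρ s₀ 0 1 * ρ s₀ 1 0 := by
  rw [mu, ent_eq h0 hu, ent_eq h0 hu, map_mul, Matrix.mul_apply, Fin.sum_univ_two]
  ring

/-- **uniqueness**: a normalised representation is given by the formula -/
theorem eq_mat {ρ : G →* M2 B} {g₀ s₀ : G} {α β u b b' v : B} (h0 : ρ g₀ = !![α, 0; 0, β])
    (hu : (α - β) * u = 1) (hb : ρ s₀ 0 1 = b) (hb' : b * b' = 1)
    (hv : mu (fun g => (ρ g).trace) g₀ s₀ β u * v = 1) (g : G) :
    ρ g = mat (fun g => (ρ g).trace) g₀ s₀ β u b b' v g := by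
  rw [mu_eq s₀ h0 hu, hb] at hv
  simp only [mat, ent_eq h0 hu]
  simp only [map_mul, Matrix.mul_apply, Fin.sum_univ_two, hb, Matrix.trace_fin_two]
  ext i j
  fin_cases i <;> fin_cases j
  · simp
  · simp
    linear_combination (-ρ g 0 1) * hv
  · simp
    linear_combination (-ρ g 1 0) * hb'
  · simp

theorem ent_map {B' : Type} [CommRing B'] (φ : B →+* B') (t : G → B) (g₀ : G) (β u : B) (g : G) :
    φ (ent t g₀ β u g) = ent (fun g => φ (t g)) g₀ (φ β) (φ u) g := by
  simp [ent]

theorem mu_map {B' : Type} [CommRing B'] (φ : B →+* B') (t : G → B) (g₀ s₀ : G) (β u : B) :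
    φ (mu t g₀ s₀ β u) = mu (fun g => φ (t g)) g₀ s₀ (φ β) (φ u) := by
  simp [mu, ent_map]

/-- **functoriality** -/
theorem mat_map {B' : Type} [CommRing B'] (φ : B →+* B') (t : G → B) (g₀ s₀ : G)
    (β u b b' v : B) (g : G) : (mat t g₀ s₀ β u b b' v g).map φ =
      mat (fun g => φ (t g)) g₀ s₀ (φ β) (φ u) (φ b) (φ b') (φ v) g := by
  ext i j
  fin_cases i <;> fin_cases j <;> simp [mat, ent_map]

/-- the entries lie in every subring which contains the data -/
theorem mat_mem (S : Subring B) {t : G → B} (ht : ∀ g, t g ∈ S) (g₀ s₀ : G) {β u b b' v : B}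
    (hβ : β ∈ S) (hu : u ∈ S) (hb : b ∈ S) (hb' : b' ∈ S) (hv : v ∈ S) (g : G) (i j : Fin 2) :
    mat t g₀ s₀ β u b b' v g i j ∈ S := by
  have he : ∀ g, ent t g₀ β u g ∈ S := fun g =>
    S.mul_mem (S.sub_mem (ht _) (S.mul_mem hβ (ht _))) hu
  fin_cases i <;> fin_cases j
  · exact he g
  · exact S.mul_mem (S.mul_mem hb hv) (S.sub_mem (he _) (S.mul_mem (he _) (he _)))
  · exact S.mul_mem hb' (S.sub_mem (he _) (S.mul_mem (he _) (he _)))
  · exact S.sub_mem (ht g) (he g)

/-- the matrix depends on the traces of `x g y` only -/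
theorem mat_congr {t : G → B} (g₀ s₀ : G) (β u b b' v : B) {g g' : G}
    (h : ∀ x y, t (x * g * y) = t (x * g' * y)) :
    mat t g₀ s₀ β u b b' v g = mat t g₀ s₀ β u b b' v g' := by
  have h1 := h 1 1
  have h2 := h 1 g₀
  have h3 := h 1 s₀
  have h4 := h 1 (s₀ * g₀)
  have h5 := h s₀ 1
  have h6 := h s₀ g₀
  simp only [one_mul, mul_one, ← mul_assoc] at h1 h2 h3 h4 h5 h6
  simp only [mat, ent, h1, h2, h3, h4, h5, h6]

/-- **existence** -/
theorem exists_rep {t : G → B} {d : G →* Bˣ} (T : TF t d) (g₀ s₀ : G) {α β u b b' v : B}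
    (hs : α + β = t g₀) (hp : α * β = d g₀) (hu : (α - β) * u = 1) (hb' : b * b' = 1)
    (hv : mu t g₀ s₀ β u * v = 1) :
    ∃ ρ : G →* M2 B, (∀ g, (ρ g).trace = t g) ∧ (∀ g, (ρ g).det = d g) ∧
      ρ g₀ = !![α, 0; 0, β] ∧ ρ s₀ 0 1 = b ∧ ∀ g, ρ g = mat t g₀ s₀ β u b b' v g := by
  obtain ⟨A, _, _, L, π, h, hL, hπ⟩ := exists_ch T
  set e : A := u • (π g₀ - β • 1) with he
  have hg : π g₀ * π g₀ = (α + β) • π g₀ - (α * β) • 1 := by
    have := congrArg (π g₀ * ·) (hπ g₀)
    simp only [mul_add, mul_smul_comm, ← map_mul π g₀ g₀⁻¹, mul_inv_cancel, map_one,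
      mul_one] at this
    rw [hs, hp, ← this, add_sub_cancel_right]
  have hge : π g₀ * e = α • e := by
    rw [he, mul_smul_comm, mul_sub, hg, mul_smul_comm, mul_one, smul_comm α u]
    congr 1
    module
  have hgg : π g₀ = (α - β) • e + β • 1 := by
    rw [he, smul_smul, hu, one_smul, sub_add_cancel]
  have hee : e * e = e := by
    conv_lhs => rw [he, smul_mul_assoc, sub_mul, ← he, hge, smul_mul_assoc, one_mul, ← sub_smul,
      smul_smul, mul_comm u, hu, one_smul]
  have hx : ∀ g, L (π g * e) = ent t g₀ β u g := by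
    intro g
    rw [he, mul_smul_comm, mul_sub, mul_smul_comm, mul_one, ← map_mul, map_smul, map_sub, map_smul,
      hL, hL, ent, smul_eq_mul, smul_eq_mul, mul_comm]
  have h1 : L e = 1 := by
    have := hx 1
    rw [map_one, one_mul, ent, one_mul, T.one, ← hs] at this
    rw [this]
    linear_combination hu
  have hf : (1 - e) * (1 - e) = 1 - e := by
    rw [sub_mul, one_mul, mul_sub, mul_one, hee, sub_self, sub_zero]
  have h2 : L (1 - e) = 1 := by
    rw [map_sub, h.one, h1]; ring
  have ef : e * (1 - e) = 0 := by rw [mul_sub, mul_one, hee, sub_self]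
  have fe : (1 - e) * e = 0 := by rw [sub_mul, one_mul, hee, sub_self]
  set s := π s₀ with hs0
  have hm : L (s * (1 - e) * s * e) = mu t g₀ s₀ β u := by
    have e1 : s * (1 - e) * s * e = s * s * e - s * (e * s * e) := by
      rw [mul_sub, mul_one, sub_mul, sub_mul]; simp only [mul_assoc]
    have e2 : L (s * s * e) = ent t g₀ β u (s₀ * s₀) := by rw [← hx, map_mul π]
    have e3 : L (s * e) = ent t g₀ β u s₀ := hx s₀
    rw [e1, h.sand hee h1, map_sub, e2, e3, mul_smul_comm (ent t g₀ β u s₀) s e, map_smul, e3, mu,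
      smul_eq_mul, sq]
  have hm' : L (s * e * s * (1 - e)) = mu t g₀ s₀ β u := by
    rw [← hm, mul_assoc (s * e), h.comm, ← mul_assoc]
  obtain ⟨Φ, hΦ⟩ := h.units (e := e) (p := b' • (e * s * (1 - e)))
    (q := (b * v) • ((1 - e) * s * e)) hee h1
    (by rw [mul_smul_comm, ← mul_assoc, ← mul_assoc, hee])
    (by rw [smul_mul_assoc, mul_assoc, fe, mul_zero, smul_zero])
    (by rw [smul_mul_assoc, mul_assoc, hee])
    (by rw [mul_smul_comm, ← mul_assoc, ← mul_assoc, ef, zero_mul, zero_mul, smul_zero])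
    (by
      have e1 : e * s * (1 - e) * ((1 - e) * s * e) = e * (s * (1 - e) * s) * e := by
        rw [mul_assoc (e * s), ← mul_assoc (1 - e), ← mul_assoc (1 - e), hf]
        simp only [mul_assoc]
      rw [smul_mul_assoc, mul_smul_comm, e1, h.sand hee h1, hm, smul_smul, smul_smul]
      have e2 : b' * (b * v) * mu t g₀ s₀ β u = 1 := by
        linear_combination (mu t g₀ s₀ β u * v) * hb' + hv
      rw [e2, one_smul])
    (by
      have e1 : (1 - e) * s * e * (e * s * (1 - e)) = (1 - e) * (s * e * s) * (1 - e) := by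
        rw [mul_assoc ((1 - e) * s), ← mul_assoc e, ← mul_assoc e, hee]
        simp only [mul_assoc]
      rw [smul_mul_assoc, mul_smul_comm, e1, h.sand hf h2, hm', smul_smul, smul_smul]
      have e2 : b * v * b' * mu t g₀ s₀ β u = 1 := by
        linear_combination (mu t g₀ s₀ β u * v) * hb' + hv
      rw [e2, one_smul])
  have htr : ∀ x, (Φ x).trace = L x := by
    intro x
    rw [hΦ, Matrix.trace_fin_two_of, ← map_add, ← mul_add, add_sub_cancel, mul_one]
  have hadd : ∀ (x y : A) (a : B), Φ (x + a • y) = Φ x + a • Φ y := by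
    intro x y a
    rw [hΦ, hΦ, hΦ]
    ext i j
    fin_cases i <;> fin_cases j <;> simp [add_mul, mul_left_comm]
  have hsm : ∀ (a : B) (y : A), Φ (a • y) = a • Φ y := by
    intro a y
    rw [hΦ, hΦ]
    ext i j
    fin_cases i <;> fin_cases j <;> simp [mul_left_comm]
  have ht : ∀ g, ((Φ.comp π) g).trace = t g := fun g => (htr _).trans (hL g)
  have hfun : (fun g => ((Φ.comp π) g).trace) = t := funext ht
  have h0 : (Φ.comp π) g₀ = !![α, 0; 0, β] := by
    have e1 : Φ e = !![1, 0; 0, 0] := by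
      rw [hΦ, hee, h1, ef, map_zero, mul_smul_comm, ← mul_assoc, ← mul_assoc, ef, zero_mul,
        zero_mul, smul_zero, map_zero, mul_smul_comm, ← mul_assoc, ← mul_assoc, hee, map_smul,
        h.comm, ← mul_assoc, fe, zero_mul, map_zero, smul_zero]
    change Φ (π g₀) = _
    rw [hgg, hadd, hsm, e1, map_one]
    ext i j
    fin_cases i <;> fin_cases j <;> simp
  have hb : (Φ.comp π) s₀ 0 1 = b := by
    change Φ s 0 1 = b
    rw [hΦ]
    change L (s * ((b * v) • ((1 - e) * s * e))) = b
    rw [mul_smul_comm, map_smul, ← mul_assoc, ← mul_assoc, hm, smul_eq_mul]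
    linear_combination b * hv
  refine ⟨Φ.comp π, ht, fun g => ?_, h0, hb, fun g => ?_⟩
  · have e1 : Φ (π g) + (d g : B) • Φ (π g⁻¹) = t g • (1 : M2 B) := by
      rw [← hadd, hπ, hsm, map_one]
    have e2 : Φ (π g) * Φ (π g⁻¹) = 1 := by
      rw [← map_mul, ← map_mul, mul_inv_cancel, map_one, map_one]
    have e3 : Φ (π g) * Φ (π g) + (d g : B) • (1 : M2 B) = t g • Φ (π g) := by
      have := congrArg (Φ (π g) * ·) e1
      simpa only [mul_add, mul_smul_comm, e2, mul_one] using this
    have e4 := congrFun (congrFun e3 0) 0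
    have e5 : (Φ (π g)).trace = t g := ht g
    rw [Matrix.trace_fin_two] at e5
    change (Φ (π g)).det = _
    rw [Matrix.det_fin_two]
    simp [Matrix.mul_apply, Fin.sum_univ_two] at e4
    linear_combination -e4 + (Φ (π g) 0 0) * e5
  · have := eq_mat (s₀ := s₀) h0 hu hb hb' (v := v) (by rw [hfun]; exact hv) g
    rwa [hfun] at this

/-- a simple root of a quadratic polynomial lifts -/
theorem hensel (I : Ideal B) [HenselianRing B I] (t d a₀ : B) (h0 : a₀ ^ 2 - t * a₀ + d ∈ I)
    (h1 : IsUnit (Ideal.Quotient.mk I (2 * a₀ - t))) :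
    ∃ α β : B, α + β = t ∧ α * β = d ∧ α - a₀ ∈ I := by
  let f : Polynomial B := Polynomial.X ^ 2 + (Polynomial.C (-t) * Polynomial.X + Polynomial.C d)
  have hm : f.Monic := Polynomial.monic_X_pow_add (lt_of_le_of_lt Polynomial.degree_linear_le
    (by norm_num))
  have hv : ∀ x, f.eval x = x ^ 2 - t * x + d := fun x => by simp [f]; ring
  have hd : f.derivative.eval a₀ = 2 * a₀ - t := by simp [f]; ring
  obtain ⟨α, h2, h3⟩ := HenselianRing.is_henselian f hm a₀ (by rw [hv]; exact h0)
    (by rw [hd]; exact h1)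
  have h4 : α ^ 2 - t * α + d = 0 := (hv α).symm.trans h2
  exact ⟨α, t - α, by ring, by linear_combination -h4, h3⟩

/-- a nilpotent ideal is henselian -/
theorem henselian_of_pow {I : Ideal B} {n : ℕ} (h : I ^ n = ⊥) : HenselianRing B I := by
  have h1 : ∀ m, n ≤ m → (I ^ m • ⊤ : Submodule B B) = ⊥ := fun m hm => by
    rw [eq_bot_iff, smul_eq_mul, Ideal.mul_top, ← h]
    exact Ideal.pow_le_pow_right hm
  have : IsHausdorff I B := ⟨fun x hx => by
    have := hx n
    rwa [h1 n le_rfl, SModEq.bot] at this⟩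
  have : IsPrecomplete I B := ⟨fun f hf => ⟨f n, fun m => by
    rcases le_total m n with hm | hm
    · exact hf hm
    · have := hf hm
      rw [h1 n le_rfl, SModEq.bot] at this
      rw [this]⟩⟩
  have : IsAdicComplete I B := ⟨⟩
  infer_instance

/-- the roots are determined by their residues -/
theorem root_unique {α β α' β' : B} (hs : α + β = α' + β') (hp : α * β = α' * β')
    (hu : IsUnit (α' - β)) : α' = α ∧ β' = β := by
  have h1 : (α' - β) * (α' - α) = 0 := by linear_combination (-α') * hs + hp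
  have h2 : α' = α := sub_eq_zero.1 (hu.mul_right_eq_zero.1 h1)
  exact ⟨h2, by linear_combination -hs - h2⟩

/-- **lifting of a residual representation**: `red` detects units and has a henselian kernel -/
theorem exists_lift {F : Type} [Field F] (red : B →+* F) [HenselianRing B (RingHom.ker red)]
    (hsurj : Function.Surjective red) (hun : ∀ x, red x ≠ 0 → IsUnit x)
    {t : G → B} {d : G →* Bˣ} (T : TF t d) (ρb : G →* M2 F) (ht : ∀ g, red (t g) = (ρb g).trace)
    (hd : ∀ g, red (d g) = (ρb g).det) (g₀ s₀ : G) {a₁ a₂ : F} (h0 : ρb g₀ = !![a₁, 0; 0, a₂])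
    (hne : a₁ ≠ a₂) (h10 : ρb s₀ 1 0 ≠ 0) (b : B) (hb : red b = ρb s₀ 0 1)
    (h01 : ρb s₀ 0 1 ≠ 0) :
    ∃ (ρ : G →* M2 B) (α β u b' v : B), (∀ g, (ρ g).trace = t g) ∧ (∀ g, (ρ g).det = d g) ∧
      (∀ g, (ρ g).map red = ρb g) ∧ ρ g₀ = !![α, 0; 0, β] ∧ ρ s₀ 0 1 = b ∧ red α = a₁ ∧
      red β = a₂ ∧ (α - β) * u = 1 ∧ b * b' = 1 ∧ mu t g₀ s₀ β u * v = 1 ∧
      (∀ g, ρ g = mat t g₀ s₀ β u b b' v g) ∧
      ∀ w : G, (∀ g, t (g * w) = t g) → ρ w = 1 := by
  obtain ⟨a₀, ha₀⟩ := hsurj a₁
  have e1 : red (t g₀) = a₁ + a₂ := by rw [ht, h0, Matrix.trace_fin_two_of]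
  have e2 : red (d g₀) = a₁ * a₂ := by rw [hd, h0, Matrix.det_fin_two_of]; ring
  obtain ⟨α, β, hs, hp, hα⟩ := hensel (RingHom.ker red) (t g₀) (d g₀) a₀
    (by rw [RingHom.mem_ker]; simp only [map_add, map_sub, map_mul, map_pow, ha₀, e1, e2]; ring)
    ((hun _ (by
      simp only [map_sub, map_mul, map_ofNat, ha₀, e1]
      intro h
      exact hne (by linear_combination h))).map _)
  have hα' : red α = a₁ := by
    rw [RingHom.mem_ker, map_sub, ha₀] at hα
    exact sub_eq_zero.1 hα
  have hβ' : red β = a₂ := by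
    have := congrArg red hs
    rw [map_add, hα', e1] at this
    exact add_left_cancel this
  obtain ⟨u, hu⟩ := (hun (α - β) (by
    rw [map_sub, hα', hβ']; exact sub_ne_zero.2 hne)).exists_right_inv
  obtain ⟨b', hb'⟩ := (hun b (by rw [hb]; exact h01)).exists_right_inv
  have hfun : (fun g => red (t g)) = fun g => (ρb g).trace := funext ht
  have hub : (a₁ - a₂) * red u = 1 := by rw [← hα', ← hβ', ← map_sub, ← map_mul, hu, map_one]
  obtain ⟨v, hv⟩ := (hun (mu t g₀ s₀ β u) (by
    rw [mu_map, hfun, hβ', mu_eq s₀ h0 hub]; exact mul_ne_zero h01 h10)).exists_right_inv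
  obtain ⟨ρ, h1, h2, h3, h4, h5⟩ := exists_rep T g₀ s₀ hs hp hu hb' hv
  refine ⟨ρ, α, β, u, b', v, h1, h2, fun g => ?_, h3, h4, hα', hβ', hu, hb', hv, h5, fun w hw => ?_⟩
  · rw [h5, mat_map, hfun, hβ']
    refine (eq_mat h0 hub hb.symm (by rw [← map_mul, hb', map_one]) ?_ g).symm
    have := congrArg red hv
    rwa [map_mul, mu_map, hfun, hβ', map_one] at this
  · rw [h5, ← map_one ρ, h5]
    refine mat_congr _ _ _ _ _ _ _ fun x y => ?_
    rw [T.comm, ← mul_assoc, hw, mul_one, T.comm]

/-- two normalised representations with the same trace are equal -/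
theorem rep_unique {ρ ρ' : G →* M2 B} {g₀ s₀ : G} {α β α' β' : B} (h0 : ρ g₀ = !![α, 0; 0, β])
    (h0' : ρ' g₀ = !![α', 0; 0, β']) (hu : IsUnit (α - β)) (hu' : IsUnit (α' - β))
    (hb : ρ' s₀ 0 1 = ρ s₀ 0 1) (h01 : IsUnit (ρ s₀ 0 1)) (h10 : IsUnit (ρ s₀ 1 0))
    (ht : ∀ g, (ρ g).trace = (ρ' g).trace) (hd : (ρ g₀).det = (ρ' g₀).det) : ρ = ρ' := by
  have hs : α + β = α' + β' := by
    have := ht g₀
    rwa [h0, h0', Matrix.trace_fin_two_of, Matrix.trace_fin_two_of] at this
  have hp : α * β = α' * β' := by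
    rw [h0, h0', Matrix.det_fin_two_of, Matrix.det_fin_two_of] at hd
    linear_combination hd
  obtain ⟨rfl, rfl⟩ := root_unique hs hp hu'
  obtain ⟨u, hu⟩ := hu.exists_right_inv
  obtain ⟨v, hv⟩ := (h01.mul h10).exists_right_inv
  obtain ⟨b', hb'⟩ := h01.exists_right_inv
  rw [← mu_eq s₀ h0 hu] at hv
  have hfun : (fun g => (ρ g).trace) = fun g => (ρ' g).trace := funext ht
  ext1 g
  rw [eq_mat h0 hu rfl hb' hv g, eq_mat h0' hu hb hb' (hfun ▸ hv) g, hfun]

/-- every lift of the residual representation is normalised by a conjugation which is `1`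
modulo the kernel of `red` -/
theorem exists_conj {F : Type} [Field F] (red : B →+* F) [HenselianRing B (RingHom.ker red)]
    (hun : ∀ x, red x ≠ 0 → IsUnit x) (m s : M2 B) {a₁ a₂ : F} (h0 : m.map red = !![a₁, 0; 0, a₂])
    (hne : a₁ ≠ a₂) (b : B) (hb : red b = red (s 0 1)) (h01 : red (s 0 1) ≠ 0) :
    ∃ (P Q : M2 B) (α β : B), P * Q = 1 ∧ Q * P = 1 ∧ P.map red = 1 ∧ Q.map red = 1 ∧
      Q * m * P = !![α, 0; 0, β] ∧ red α = a₁ ∧ red β = a₂ ∧ (Q * s * P) 0 1 = b := by
  have m00 : red (m 0 0) = a₁ := congrFun (congrFun h0 0) 0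
  have m01 : red (m 0 1) = 0 := congrFun (congrFun h0 0) 1
  have m10 : red (m 1 0) = 0 := congrFun (congrFun h0 1) 0
  have m11 : red (m 1 1) = a₂ := congrFun (congrFun h0 1) 1
  obtain ⟨α, β, hs, hp, hα⟩ := hensel (RingHom.ker red) (m 0 0 + m 1 1)
    (m 0 0 * m 1 1 - m 0 1 * m 1 0) (m 0 0)
    (by rw [RingHom.mem_ker]; simp only [map_add, map_sub, map_mul, map_pow, m00, m01, m11]; ring)
    ((hun _ (by
      simp only [map_sub, map_add, map_mul, map_ofNat, m00, m11]
      intro h
      exact hne (by linear_combination h))).map _)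
  have hα' : red α = a₁ := by
    rw [RingHom.mem_ker, map_sub, m00] at hα
    exact sub_eq_zero.1 hα
  have hβ' : red β = a₂ := by
    have := congrArg red hs
    rw [map_add, map_add, hα', m00, m11] at this
    exact add_left_cancel this
  obtain ⟨u, hu⟩ := (hun (α - m 1 1) (by
    rw [map_sub, hα', m11]; exact sub_ne_zero.2 hne)).exists_right_inv
  set x := -(m 0 1) * u with hx
  set y := m 1 0 * u with hy
  have hx0 : red x = 0 := by rw [hx, map_mul, map_neg, m01, neg_zero, zero_mul]
  have hy0 : red y = 0 := by rw [hy, map_mul, m10, zero_mul]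
  obtain ⟨w, hw⟩ := (hun (1 - x * y) (by
    rw [map_sub, map_mul, hx0, zero_mul, map_one, sub_zero]; exact one_ne_zero)).exists_right_inv
  have hw1 : red w = 1 := by
    have := congrArg red hw
    rwa [map_mul, map_sub, map_mul, hx0, zero_mul, map_one, sub_zero, one_mul] at this
  set c := w * (s 0 0 * x + s 0 1 - x * (s 1 0 * x + s 1 1)) with hc
  have hc1 : red c = red (s 0 1) := by
    simp [hc, hw1, hx0]
  obtain ⟨c', hc'⟩ := (hun c (by rw [hc1]; exact h01)).exists_right_inv
  obtain ⟨b', hb'⟩ := (hun b (by rw [hb]; exact h01)).exists_right_inv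
  have k1 : red b * red c' = 1 := by rw [hb, ← hc1, ← map_mul, hc', map_one]
  have k2 : red c * red b' = 1 := by rw [hc1, ← hb, ← map_mul, hb', map_one]
  have hQP : !![w, -(w * x); -(c * b' * w * y), c * b' * w] * !![1, x * (b * c'); y, b * c'] =
      (1 : M2 B) := by
    ext i j
    fin_cases i <;> fin_cases j <;> simp [Matrix.mul_apply, Fin.sum_univ_two]
    · linear_combination hw
    · ring
    · linear_combination (c * c' * b * b') * hw + (b * b') * hc' + hb'
  have e1 : m * !![1, x * (b * c'); y, b * c'] = !![1, x * (b * c'); y, b * c'] * !![α, 0; 0, β] := by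
    ext i j
    fin_cases i <;> fin_cases j <;> simp [Matrix.mul_apply, Fin.sum_univ_two]
    · rw [hy]
      linear_combination (α - m 0 0) * hu + (-(α * u)) * hs + u * hp
    · rw [hx]
      linear_combination (-(b * c' * m 0 1)) * hu + (b * c' * m 0 1 * u) * hs
    · rw [hy]
      linear_combination (-(m 1 0)) * hu
    · rw [hx]
      linear_combination (b * c' * (β - m 1 1)) * hu + (b * c' * u * m 1 1) * hs
        - (b * c' * u) * hp
  refine ⟨!![1, x * (b * c'); y, b * c'], !![w, -(w * x); -(c * b' * w * y), c * b' * w], α, β,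
    mul_eq_one_comm.1 hQP, hQP, ?_, ?_, ?_, hα', hβ', ?_⟩
  · ext i j
    fin_cases i <;> fin_cases j <;> simp [hx0, hy0, k1]
  · ext i j
    fin_cases i <;> fin_cases j <;> simp [hx0, hy0, k2, hw1]
  · rw [mul_assoc, e1, ← mul_assoc, hQP, one_mul]
  · rw [Matrix.mul_apply, Fin.sum_univ_two, Matrix.mul_apply, Matrix.mul_apply, Fin.sum_univ_two,
      Fin.sum_univ_two]
    simp
    linear_combination (b * c') * hc.symm + b * hc'

end grp

end Vale.Agent.P022D.Gma
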